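/-!
# Computational part of the Snaky certificate checker

This file has no imports, so that the certificate data is cheap to check. Bit `k` of a mask is
the cell `(k % 16, k / 16)`; masks have 288 bits.

A node is one number. Low to high: the move `m` (9 bits), the kind (1 bit, set for a win), the
Maker cells `M` (288 bits), the zone `Z` (288 bits), and the payload: for a win the orientation
(3 bits) and the offset; otherwise the children, 18 bits each, as index plus one.
-/

namespace Vale.Agent.P062

/-- Binary trie of node numbers. -/
inductive Trie where
  | leaf (n : Nat)
  | node (l r : Trie)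

/-- Lookup of an index below `2 ^ 18`, most significant bit first. It is written with recursors
and primitive operations on `Nat`, which the kernel evaluates quickly. -/
noncomputable def lookup (T : Trie) (i : Nat) : Nat :=
  Trie.rec (motive := fun _ => Nat → Nat) (fun n _ => n)
    (fun _ _ l r j => Bool.rec (motive := fun _ => Nat → Nat) r l (Nat.blt j 131072)
      (Nat.mul 2 (Nat.mod j 131072))) T i

/-- The mask of all 288 bits. -/
def fullMask : Nat :=
  497323236409786642155382248146820840100456150797347717440463976893159497012533375533055

/-- The move of a node. -/
def moveOf (n : Nat) : Nat := n &&& 511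

/-- A node claims an immediate win. -/
def isWin (n : Nat) : Bool := n.testBit 9

/-- The Maker cells of a node. -/
def makerOf (n : Nat) : Nat := (n >>> 10) &&& fullMask

/-- The zone of a node. -/
def zoneOf (n : Nat) : Nat := (n >>> 298) &&& fullMask

/-- The payload of a node. -/
def payloadOf (n : Nat) : Nat := n >>> 586

/-- `a` is contained in `b`, as masks. -/
def sub (a b : Nat) : Bool := Nat.beq (a ||| b) b

/-- The cell of a bit, as a pair of integers. -/
def pos (k : Nat) : Int × Int := (Int.ofNat (k % 16), Int.ofNat (k / 16))

/-- A signed permutation of the coordinates. -/
def rot (swap negX negY : Bool) (p : Int × Int) : Int × Int :=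
  let q : Int × Int := if swap then (p.2, p.1) else p
  (if negX then -q.1 else q.1, if negY then -q.2 else q.2)

/-- The cell lies on the board and its bit is set in `N`. -/
def hasCell (N : Nat) (p : Int × Int) : Bool :=
  match p.1, p.2 with
  | Int.ofNat x, Int.ofNat y => Nat.blt x 16 && N.testBit (x + 16 * y)
  | _, _ => false

/-- The six cells of Snaky. -/
def snakyList : List (Int × Int) := [(0, 0), (1, 0), (2, 0), (3, 0), (3, 1), (4, 1)]

/-- Translation of a cell. -/
def shiftBy (t p : Int × Int) : Int × Int := (t.1 + p.1, t.2 + p.2)

/-- A win payload names a copy contained in `N`. -/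
def winOk (N pl : Nat) : Bool :=
  snakyList.all fun p =>
    hasCell N (shiftBy (pos (pl >>> 3)) (rot (pl.testBit 0) (pl.testBit 1) (pl.testBit 2) p))

/-- Go through the children, checking that each has a smaller index, no Maker cell outside `M'`
and a zone inside `U`; return the intersection of their zones. -/
noncomputable def children (T : Trie) (i M' U : Nat) : Nat → Nat → Nat → Option Nat
  | 0, pl, acc => if Nat.beq pl 0 then some acc else none
  | fuel + 1, pl, acc =>
    if Nat.beq pl 0 then some acc
    else
      let c := (pl &&& 262143) - 1
      let n := lookup T c
      if Nat.blt c i && (sub (makerOf n) M' && sub (zoneOf n) U) then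
        children T i M' U fuel (pl >>> 18) (acc &&& zoneOf n)
      else none

/-- The check of node number `i`. -/
noncomputable def checkNode (T : Trie) (i : Nat) : Bool :=
  let n := lookup T i
  let M' := makerOf n ||| 2 ^ moveOf n
  (zoneOf n).testBit (moveOf n) &&
    if isWin n then winOk M' (payloadOf n)
    else
      let first := (payloadOf n &&& 262143) - 1
      let f := lookup T first
      Nat.blt first i && (sub (makerOf f) M' && (sub (zoneOf f) (zoneOf n ||| M') &&
        match children T i M' (zoneOf n ||| M') 256 (payloadOf n >>> 18) (zoneOf f) with
        | none => false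
        | some acc => sub acc M'))

/-- Check the nodes `lo, …, lo + len - 1`. -/
noncomputable def checkRange (T : Trie) : Nat → Nat → Bool
  | _, 0 => true
  | lo, len + 1 => checkNode T lo && checkRange T (lo + 1) len

/-- A node and a symmetry about the first move. -/
abbrev Answer := Nat × Bool × Bool × Bool

/-- The answer `a` covers the reply at bit `k` to the first move at bit `o`. -/
noncomputable def answers (T : Trie) (N o k : Nat) (a : Answer) : Bool :=
  let nd := lookup T a.1
  Nat.blt a.1 N && (Nat.beq (makerOf nd) (2 ^ o) &&
    !hasCell (zoneOf nd) (shiftBy (pos o)
      (rot a.2.1 a.2.2.1 a.2.2.2 ((pos k).1 - (pos o).1, (pos k).2 - (pos o).2))))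

/-- Every reply to the first move at bit `o` is answered. -/
noncomputable def checkRoot (T : Trie) (N o z : Nat) (L : List Answer) : Bool :=
  let nd := lookup T z
  Nat.blt z N && (Nat.beq (makerOf nd) (2 ^ o) &&
    (List.range 288).all fun k => k == o || (!(zoneOf nd).testBit k || L.any (answers T N o k)))

end Vale.Agent.P062
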