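import Vale.Agent.P062.Game
import Vale.Agent.P062.Packed

/-!
# Soundness of the checker for relevance-zone strategy certificates

The meaning of a node is `Good`: Maker wins from every position in which it owns at least the
node's cells `M` and Breaker owns no cell of the zone `Z`.
-/

namespace Vale.Agent.P062

lemma pos_eq (k : ℕ) : pos k = (((k % 16 : ℕ) : ℤ), ((k / 16 : ℕ) : ℤ)) := rfl

lemma pos_injective : Function.Injective pos := by
  intro a b h
  simp only [pos_eq, Prod.mk.injEq, Nat.cast_inj] at h
  omega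

lemma rot_eq (s x y : Bool) (p : Cell) : rot s x y p = signedPerm s x y p := rfl

lemma shiftBy_eq (t p : Cell) : shiftBy t p = t + p := rfl

/-- `p` is the cell of a set bit of `N`. -/
def InMask (N : ℕ) (p : Cell) : Prop := ∃ k, N.testBit k = true ∧ pos k = p

/-- Maker wins within `n` moves from every position owning `M` and with the cells of `Z` not
claimed by Breaker. -/
def Good (n M Z : ℕ) : Prop :=
  ∀ (MS BS : Finset Cell), (∀ p, InMask M p → p ∈ MS) → (∀ p, InMask Z p → p ∉ BS) →
    Disjoint MS BS → MakerWinsIn n MS BS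

lemma inMask_of_hasCell {N : ℕ} {p : Cell} (h : hasCell N p = true) : InMask N p := by
  obtain ⟨x, y⟩ := p
  rcases x with x | x <;> rcases y with y | y <;> simp [hasCell] at h
  refine ⟨x + 16 * y, h.2, ?_⟩
  have h1 : (x + 16 * y) % 16 = x := by omega
  have h2 : (x + 16 * y) / 16 = y := by omega
  simp [pos, h1, h2]

lemma hasCell_of_inMask {N : ℕ} {p : Cell} (h : InMask N p) : hasCell N p = true := by
  obtain ⟨k, hk, rfl⟩ := h
  have h1 : k % 16 < 16 := Nat.mod_lt _ (by decide)
  have h2 := Nat.mod_add_div k 16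
  change (Nat.blt (k % 16) 16 && N.testBit (k % 16 + 16 * (k / 16))) = true
  simp [h1, h2, hk]

lemma sub_spec {a b : ℕ} (h : sub a b = true) {p : Cell} (hp : InMask a p) : InMask b p := by
  obtain ⟨k, hk, rfl⟩ := hp
  refine ⟨k, ?_, rfl⟩
  rw [← Nat.eq_of_beq_eq_true h, Nat.testBit_or, hk, Bool.true_or]

lemma inMask_or {a b : ℕ} {p : Cell} : InMask (a ||| b) p ↔ InMask a p ∨ InMask b p := by
  constructor
  · rintro ⟨k, hk, rfl⟩
    rw [Nat.testBit_or, Bool.or_eq_true] at hk
    exact hk.imp (fun h => ⟨k, h, rfl⟩) (fun h => ⟨k, h, rfl⟩)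
  · rintro (⟨k, hk, rfl⟩ | ⟨k, hk, rfl⟩) <;> exact ⟨k, by simp [Nat.testBit_or, hk], rfl⟩

lemma inMask_two_pow {m : ℕ} {p : Cell} (h : InMask (2 ^ m) p) : p = pos m := by
  obtain ⟨k, hk, rfl⟩ := h
  rw [Nat.testBit_two_pow, decide_eq_true_eq] at hk
  rw [hk]

/-- A reply outside the intersection of the zones is avoided by some child. -/
lemma children_spec {T : Trie} {i M' U : ℕ} : ∀ (fuel pl acc out : ℕ),
    children T i M' U fuel pl acc = some out → ∀ p, ¬ InMask out p →
      ¬ InMask acc p ∨ ∃ c, c < i ∧ sub (makerOf (lookup T c)) M' = true ∧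
        sub (zoneOf (lookup T c)) U = true ∧ ¬ InMask (zoneOf (lookup T c)) p := by
  intro fuel
  induction fuel with
  | zero =>
    intro pl acc out h p hp
    simp only [children] at h
    split at h
    · simp only [Option.some.injEq] at h; exact Or.inl (h ▸ hp)
    · simp at h
  | succ fuel ih =>
    intro pl acc out h p hp
    simp only [children] at h
    split at h
    · simp only [Option.some.injEq] at h; exact Or.inl (h ▸ hp)
    split at h
    swap
    · simp at h
    rename_i hc
    simp only [Bool.and_eq_true, Nat.blt_eq] at hc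
    rcases ih _ _ _ h p hp with h1 | h1
    · by_cases ha : InMask acc p
      · refine Or.inr ⟨_, hc.1, hc.2.1, hc.2.2, ?_⟩
        rintro ⟨k, hk, rfl⟩
        obtain ⟨k', hk', he⟩ := ha
        obtain rfl := pos_injective he
        exact h1 ⟨k', by simp [Nat.testBit_and, hk, hk'], rfl⟩
      · exact Or.inl ha
    · exact Or.inr h1

lemma exists_free (MS BS : Finset Cell) : ∃ p : Cell, p ∉ MS ∧ p ∉ BS := by
  obtain ⟨p, hp⟩ := Infinite.exists_notMem_finset (MS ∪ BS)
  exact ⟨p, fun h => hp (Finset.mem_union_left _ h), fun h => hp (Finset.mem_union_right _ h)⟩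

/-- If the first `N` nodes check, they are good. -/
theorem good_of_check {T : Trie} {N : ℕ} (hall : ∀ i < N, checkNode T i = true) :
    ∀ i < N, Good (i + 1) (makerOf (lookup T i)) (zoneOf (lookup T i)) := by
  intro i
  induction i using Nat.strong_induction_on with
  | _ i ih =>
    intro hi MS BS hM hZ hdisj
    have h := hall i hi
    simp only [checkNode, Bool.and_eq_true] at h
    set n := lookup T i
    obtain ⟨hm, hstep⟩ := h
    obtain ⟨q, hqM, hqB, hq⟩ : ∃ q, q ∉ MS ∧ q ∉ BS ∧ pos (moveOf n) ∈ insert q MS := by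
      by_cases h1 : pos (moveOf n) ∈ MS
      · obtain ⟨q, a, b⟩ := exists_free MS BS
        exact ⟨q, a, b, Finset.mem_insert_of_mem h1⟩
      · exact ⟨pos (moveOf n), h1, hZ _ ⟨_, hm, rfl⟩, Finset.mem_insert_self _ _⟩
    have hM' : ∀ p, InMask (makerOf n ||| 2 ^ moveOf n) p → p ∈ insert q MS := by
      intro p hp
      rcases inMask_or.1 hp with hp | hp
      · exact Finset.mem_insert_of_mem (hM p hp)
      · rw [inMask_two_pow hp]; exact hq
    refine Or.inr ⟨q, hqM, hqB, ?_⟩
    by_cases hwin : isWin n = true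
    · rw [if_pos hwin] at hstep
      refine Or.inl ⟨snaky.image fun p => pos (payloadOf n >>> 3)
        + signedPerm ((payloadOf n).testBit 0) ((payloadOf n).testBit 1) ((payloadOf n).testBit 2) p,
        ⟨_, _, _, _, rfl⟩, ?_⟩
      intro p hp
      obtain ⟨c, hc, rfl⟩ := Finset.mem_image.1 hp
      refine hM' _ (inMask_of_hasCell (List.all_eq_true.1 hstep c ?_))
      simpa [snakyList, snaky] using hc
    · rw [if_neg hwin] at hstep
      simp only [Bool.and_eq_true, Nat.blt_eq] at hstep
      obtain ⟨hci, hfM, hfZ, hch⟩ := hstep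
      split at hch
      · simp at hch
      rename_i acc hacc
      refine Or.inr fun b hb hbB => ?_
      obtain ⟨c, hc, hsM, hsZ, hbZ⟩ : ∃ c, c < i ∧
          sub (makerOf (lookup T c)) (makerOf n ||| 2 ^ moveOf n) = true ∧
          sub (zoneOf (lookup T c)) (zoneOf n ||| (makerOf n ||| 2 ^ moveOf n)) = true ∧
          ¬ InMask (zoneOf (lookup T c)) b := by
        rcases children_spec _ _ _ acc hacc b
          (fun h => hb (hM' b (sub_spec hch h))) with h1 | h1
        · exact ⟨_, hci, hfM, hfZ, h1⟩
        · exact h1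
      refine makerWinsIn_mono (by omega) (ih c hc (hc.trans hi) (insert q MS) (insert b BS)
        (fun p hp => hM' p (sub_spec hsM hp)) (fun p hp => ?_) ?_)
      · rw [Finset.mem_insert, not_or]
        refine ⟨fun h => hbZ (h ▸ hp), fun hpB => ?_⟩
        rcases inMask_or.1 (sub_spec hsZ hp) with h1 | h1
        · exact hZ p h1 hpB
        · rcases Finset.mem_insert.1 (hM' p h1) with h2 | h2
          · exact hqB (h2 ▸ hpB)
          · exact Finset.disjoint_left.1 hdisj h2 hpB
      · rw [Finset.disjoint_insert_left, Finset.disjoint_insert_right, Finset.mem_insert]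
        exact ⟨fun h => h.elim (fun e => hb (e ▸ Finset.mem_insert_self _ _)) hqB,
          fun h => hb (Finset.mem_insert_of_mem h), hdisj⟩

lemma checkRange_spec {T : Trie} : ∀ {len lo : ℕ}, checkRange T lo len = true →
    ∀ i, lo ≤ i → i < lo + len → checkNode T i = true
  | 0, _, _, _, h1, h2 => absurd h2 (by omega)
  | len + 1, lo, h, i, h1, h2 => by
    simp only [checkRange, Bool.and_eq_true] at h
    rcases eq_or_lt_of_le h1 with rfl | h3
    · exact h.1
    · exact checkRange_spec h.2 i h3 (by omega)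

lemma zoneOf_testBit_lt {n k : ℕ} (h : (zoneOf n).testBit k = true) : k < 288 := by
  by_contra hk
  rw [zoneOf, Nat.testBit_and, Bool.and_eq_true] at h
  have : fullMask < 2 ^ k :=
    Nat.lt_of_lt_of_le (by decide +kernel : fullMask < 2 ^ 288)
      (Nat.pow_le_pow_right two_pos (not_lt.1 hk))
  rw [Nat.testBit_lt_two_pow this] at h
  exact Bool.false_ne_true h.2

/-- A checked certificate proves that Maker wins on the empty board. -/
theorem makerWins_of_check {T : Trie} {N o z : ℕ} {L : List Answer}
    (hnodes : ∀ i < N, checkNode T i = true) (hroot : checkRoot T N o z L = true) :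
    MakerWinsIn (N + 1) ∅ ∅ := by
  have hgood : ∀ i, i < N → makerOf (lookup T i) = 2 ^ o → ∀ b : Cell, b ≠ pos o →
      ¬ InMask (zoneOf (lookup T i)) b → MakerWinsIn N {pos o} {b} := by
    intro i hi hM b hb hbZ
    exact makerWinsIn_mono hi (good_of_check hnodes i hi {pos o} {b}
      (fun p hp => Finset.mem_singleton.2 (inMask_two_pow (hM ▸ hp)))
      (fun p hp => fun h => hbZ (Finset.mem_singleton.1 h ▸ hp))
      (Finset.disjoint_singleton.2 hb.symm))
  refine Or.inr ⟨pos o, Finset.notMem_empty _, Finset.notMem_empty _, Or.inr fun b hb _ => ?_⟩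
  rw [insert_empty_eq] at hb ⊢
  rw [insert_empty_eq]
  have hbo : b ≠ pos o := by simpa using hb
  simp only [checkRoot, Bool.and_eq_true, List.all_eq_true, List.mem_range, Nat.blt_eq] at hroot
  obtain ⟨hz, hM, hcov⟩ := hroot
  by_cases hbZ : InMask (zoneOf (lookup T z)) b
  swap
  · exact hgood z hz (Nat.eq_of_beq_eq_true hM) b hbo hbZ
  obtain ⟨k, hk, rfl⟩ := hbZ
  have := hcov k (zoneOf_testBit_lt hk)
  simp only [Bool.or_eq_true, beq_iff_eq, hk, Bool.not_true, Bool.false_eq_true,
    false_or, List.any_eq_true] at this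
  rcases this with rfl | ⟨⟨i, s, x, y⟩, -, ha⟩
  · exact absurd rfl hbo
  simp only [answers, Bool.and_eq_true, Bool.not_eq_true', Nat.blt_eq] at ha
  obtain ⟨hi, hMi, hcell⟩ := ha
  rw [shiftBy_eq, rot_eq, ← Prod.mk_sub_mk, Prod.mk.eta, Prod.mk.eta] at hcell
  set g := symAbout (pos o) s x y
  have hgo : g.toEquiv (pos o) = pos o := by
    cases s <;> cases x <;> cases y <;> simp [g, signedPerm]
  -- win after the image reply, then pull back along the inverse symmetry
  obtain ⟨h, hh⟩ : ∃ h : Sym, ∀ p, h.toEquiv (g.toEquiv p) = p := by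
    refine ⟨symAbout (pos o) s (if s then y else x) (if s then x else y), fun p => ?_⟩
    simp [g, (signedPerm_inv s x y (p - pos o)).1]
  have hw := hgood i hi (Nat.eq_of_beq_eq_true hMi) (g.toEquiv (pos k))
    (fun e => hbo (g.toEquiv.injective (e.trans hgo.symm)))
    (fun hc => by have := hasCell_of_inMask hc; simp [g, hcell] at this)
  have := hw.map h
  have ho : h.toEquiv (pos o) = pos o := by
    conv_lhs => rw [← hgo]
    exact hh _
  rwa [Finset.image_singleton, Finset.image_singleton, hh, ho] at this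

end Vale.Agent.P062
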