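import Vale.Agent.P062.Game

/-!
# From the recursive notion of winning to explicit strategies and plays

A play is generated by a strategy `σ` of Maker, which sees the current position, and by the
sequence `β` of Breaker's moves. Since `σ` is deterministic, every way Breaker can play against
it is given by such a sequence.
-/

namespace Vale.Agent.P062

/-- The position after `k` turns of both players: Maker's and Breaker's cells. -/
def play (σ : Finset Cell → Finset Cell → Cell) (β : ℕ → Cell) : ℕ → Finset Cell × Finset Cell
  | 0 => (∅, ∅)
  | k + 1 =>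
    (insert (σ (play σ β k).1 (play σ β k).2) (play σ β k).1, insert (β k) (play σ β k).2)

/-- Breaker's move in turn `k` is a cell unclaimed at that moment. -/
def LegalReply (σ : Finset Cell → Finset Cell → Cell) (β : ℕ → Cell) (k : ℕ) : Prop :=
  β k ∉ (play σ β (k + 1)).1 ∧ β k ∉ (play σ β k).2

/-- Maker has a winning strategy: some strategy that only claims unclaimed cells owns an allowed
copy after `N` moves of its own, against every legal play of Breaker. -/
def MakerHasWinningStrategy : Prop :=
  ∃ (N : ℕ) (σ : Finset Cell → Finset Cell → Cell), (∀ M B, σ M B ∉ M ∧ σ M B ∉ B) ∧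
    ∀ β : ℕ → Cell, (∀ k, k + 1 < N → LegalReply σ β k) → Owns (play σ β N).1

open Classical in
/-- The strategy: a winning move of least depth, and an arbitrary free cell otherwise. -/
noncomputable def bestMove (M B : Finset Cell) : Cell :=
  if h : ∃ n, ∃ m, m ∉ M ∧ m ∉ B ∧ (Owns (insert m M) ∨
      ∀ b, b ∉ insert m M → b ∉ B → MakerWinsIn n (insert m M) (insert b B))
  then (Nat.find_spec h).choose
  else (Infinite.exists_notMem_finset (M ∪ B)).choose

lemma bestMove_free (M B : Finset Cell) : bestMove M B ∉ M ∧ bestMove M B ∉ B := by
  classical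
  unfold bestMove
  split
  · rename_i h
    exact ⟨(Nat.find_spec h).choose_spec.1, (Nat.find_spec h).choose_spec.2.1⟩
  · have h := (Infinite.exists_notMem_finset (M ∪ B)).choose_spec
    rw [Finset.mem_union, not_or] at h
    exact h

/-- A winning position is still winning, with one move less, after the best move. -/
lemma bestMove_spec {n : ℕ} {M B : Finset Cell} (h : MakerWinsIn (n + 1) M B) (hno : ¬ Owns M) :
    Owns (insert (bestMove M B) M) ∨ ∀ b, b ∉ insert (bestMove M B) M → b ∉ B →
      MakerWinsIn n (insert (bestMove M B) M) (insert b B) := by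
  classical
  obtain ⟨m, hm⟩ := h.resolve_left hno
  have hex : ∃ n, ∃ m, m ∉ M ∧ m ∉ B ∧ (Owns (insert m M) ∨
      ∀ b, b ∉ insert m M → b ∉ B → MakerWinsIn n (insert m M) (insert b B)) := ⟨n, m, hm⟩
  have hle : Nat.find hex ≤ n := Nat.find_min' hex ⟨m, hm⟩
  have hs := (Nat.find_spec hex).choose_spec.2.2
  rw [bestMove, dif_pos hex]
  exact hs.imp id fun h b h1 h2 => makerWinsIn_mono hle (h b h1 h2)

lemma play_mono (σ : Finset Cell → Finset Cell → Cell) (β : ℕ → Cell) {i j : ℕ} (h : i ≤ j) :
    (play σ β i).1 ⊆ (play σ β j).1 := by
  induction h with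
  | refl => exact subset_rfl
  | step _ ih => exact ih.trans (Finset.subset_insert _ _)

theorem makerHasWinningStrategy {N : ℕ} (h : MakerWinsIn N ∅ ∅) : MakerHasWinningStrategy := by
  refine ⟨N, bestMove, bestMove_free, fun β hβ => ?_⟩
  suffices H : ∀ k ≤ N, Owns (play bestMove β k).1 ∨
      MakerWinsIn (N - k) (play bestMove β k).1 (play bestMove β k).2 by
    rcases H N le_rfl with h' | h'
    · exact h'
    · rwa [Nat.sub_self] at h'
  intro k
  induction k with
  | zero => exact fun _ => Or.inr h
  | succ k ih =>
    intro hk
    by_cases hno : Owns (play bestMove β (k + 1)).1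
    · exact Or.inl hno
    rcases ih (Nat.le_of_succ_le hk) with h' | h'
    · exact absurd (h'.mono (play_mono _ _ k.le_succ)) hno
    rw [show N - k = (N - (k + 1)) + 1 by omega] at h'
    have hno' : ¬ Owns (play bestMove β k).1 := fun hc =>
      hno (hc.mono (play_mono _ _ k.le_succ))
    rcases bestMove_spec h' hno' with h'' | h''
    · exact absurd h'' hno
    rcases (Nat.succ_le_iff.1 hk : k < N) |> Nat.succ_le_iff.2 |>.lt_or_eq with hlt | heq
    · exact Or.inr (h'' (β k) (hβ k hlt).1 (hβ k hlt).2)
    · -- after Maker's last move only its own cells matter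
      obtain ⟨b, hb⟩ := Infinite.exists_notMem_finset
        (insert (bestMove (play bestMove β k).1 (play bestMove β k).2) (play bestMove β k).1
          ∪ (play bestMove β k).2)
      rw [Finset.mem_union, not_or] at hb
      have := h'' b hb.1 hb.2
      rw [show N - (k + 1) = 0 by omega] at this
      exact absurd this hno

end Vale.Agent.P062
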