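import Mathlib

/-!
# The Snaky achievement game on the planar grid: definitions and basic lemmas
-/

namespace Vale.Agent.P062

/-- A cell of the square grid, indexed by its lower-left corner. -/
abbrev Cell := ℤ × ℤ

/-- The hexomino Snaky. -/
def snaky : Finset Cell := {(0, 0), (1, 0), (2, 0), (3, 0), (3, 1), (4, 1)}

/-- The eight signed permutation matrices of size two, acting on cells:
optionally exchange the coordinates, then change signs. -/
def signedPerm (swap negX negY : Bool) (p : Cell) : Cell :=
  let q : Cell := if swap then (p.2, p.1) else p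
  (if negX then -q.1 else q.1, if negY then -q.2 else q.2)

/-- An allowed copy of Snaky is `t + R(S)`. -/
def IsCopy (C : Finset Cell) : Prop :=
  ∃ (swap negX negY : Bool) (t : Cell), C = snaky.image fun p => t + signedPerm swap negX negY p

/-- Maker owns every cell of some allowed copy. -/
def Owns (M : Finset Cell) : Prop := ∃ C, IsCopy C ∧ C ⊆ M

/-- With Maker's cells `M`, Breaker's cells `B` and Maker to move, Maker can force the ownership
of an allowed copy within `n` further moves of its own against every legal play of Breaker. -/
def MakerWinsIn : ℕ → Finset Cell → Finset Cell → Prop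
  | 0, M, _ => Owns M
  | n + 1, M, B => Owns M ∨ ∃ m, m ∉ M ∧ m ∉ B ∧
      (Owns (insert m M) ∨ ∀ b, b ∉ insert m M → b ∉ B →
        MakerWinsIn n (insert m M) (insert b B))

lemma Owns.mono {M M' : Finset Cell} (h : Owns M) (hM : M ⊆ M') : Owns M' :=
  h.imp fun _ hC => ⟨hC.1, hC.2.trans hM⟩

lemma makerWinsIn_of_owns {M B : Finset Cell} (h : Owns M) : ∀ n, MakerWinsIn n M B
  | 0 => h
  | _ + 1 => Or.inl h

lemma makerWinsIn_succ {M B : Finset Cell} :
    ∀ {n : ℕ}, MakerWinsIn n M B → MakerWinsIn (n + 1) M B := by
  intro n
  induction n generalizing M B with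
  | zero => exact fun h => Or.inl h
  | succ n ih =>
    rintro (h | ⟨m, hM, hB, h | h⟩)
    · exact Or.inl h
    · exact Or.inr ⟨m, hM, hB, Or.inl h⟩
    · exact Or.inr ⟨m, hM, hB, Or.inr fun b hb hb' => ih (h b hb hb')⟩

lemma makerWinsIn_mono {M B : Finset Cell} {n k : ℕ} (hnk : n ≤ k) (h : MakerWinsIn n M B) :
    MakerWinsIn k M B := by
  induction hnk with
  | refl => exact h
  | step _ ih => exact makerWinsIn_succ ih

/-- A symmetry of the game: a bijection of cells mapping allowed copies to allowed copies. -/
structure Sym where
  toEquiv : Cell ≃ Cell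
  map_copy : ∀ C, IsCopy C → IsCopy (C.image toEquiv)

lemma Owns.map {M : Finset Cell} (h : Owns M) (g : Sym) : Owns (M.image g.toEquiv) := by
  obtain ⟨C, hC, hsub⟩ := h
  exact ⟨_, g.map_copy C hC, Finset.image_subset_image hsub⟩

lemma MakerWinsIn.map (g : Sym) : ∀ {n : ℕ} {M B : Finset Cell}, MakerWinsIn n M B →
    MakerWinsIn n (M.image g.toEquiv) (B.image g.toEquiv) := by
  intro n
  induction n with
  | zero => exact fun h => Owns.map h g
  | succ n ih =>
    rintro M B (h | ⟨m, hM, hB, h⟩)
    · exact Or.inl (Owns.map h g)
    refine Or.inr ⟨g.toEquiv m, by simpa using hM, by simpa using hB, ?_⟩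
    rw [← Finset.image_insert]
    rcases h with h | h
    · exact Or.inl (Owns.map h g)
    refine Or.inr fun b hb hb' => ?_
    obtain ⟨b, rfl⟩ := g.toEquiv.surjective b
    rw [← Finset.image_insert]
    exact ih (h b (fun hc => hb (Finset.mem_image_of_mem _ hc))
      (fun hc => hb' (Finset.mem_image_of_mem _ hc)))

lemma signedPerm_add (s x y : Bool) (p q : Cell) :
    signedPerm s x y (p + q) = signedPerm s x y p + signedPerm s x y q := by
  cases s <;> cases x <;> cases y <;> simp [signedPerm, Prod.ext_iff] <;> omega

lemma signedPerm_comp (s x y s' x' y' : Bool) : ∃ s'' x'' y'' : Bool, ∀ p : Cell,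
    signedPerm s x y (signedPerm s' x' y' p) = signedPerm s'' x'' y'' p := by
  refine ⟨xor s s', if s then xor x y' else xor x x', if s then xor y x' else xor y y', fun p => ?_⟩
  cases s <;> cases x <;> cases y <;> cases s' <;> cases x' <;> cases y' <;> simp [signedPerm]

lemma signedPerm_inv (s x y : Bool) (p : Cell) :
    signedPerm s (if s then y else x) (if s then x else y) (signedPerm s x y p) = p ∧
      signedPerm s x y (signedPerm s (if s then y else x) (if s then x else y) p) = p := by
  cases s <;> cases x <;> cases y <;> simp [signedPerm]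

/-- The symmetry fixing `o` with linear part `signedPerm s x y`. -/
def symAbout (o : Cell) (s x y : Bool) : Sym where
  toEquiv :=
    { toFun := fun p => o + signedPerm s x y (p - o)
      invFun := fun p => o + signedPerm s (if s then y else x) (if s then x else y) (p - o)
      left_inv := fun p => by simp [(signedPerm_inv s x y (p - o)).1]
      right_inv := fun p => by simp [(signedPerm_inv s x y (p - o)).2] }
  map_copy := by
    rintro C ⟨s', x', y', t, rfl⟩
    obtain ⟨s'', x'', y'', h⟩ := signedPerm_comp s x y s' x' y'
    refine ⟨s'', x'', y'', o + signedPerm s x y (t - o), ?_⟩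
    rw [Finset.image_image]
    refine Finset.image_congr fun p _ => ?_
    simp only [Function.comp_apply, Equiv.coe_fn_mk]
    rw [show t + signedPerm s' x' y' p - o = (t - o) + signedPerm s' x' y' p by abel,
      signedPerm_add, h, add_assoc]

@[simp] lemma symAbout_apply (o p : Cell) (s x y : Bool) :
    (symAbout o s x y).toEquiv p = o + signedPerm s x y (p - o) := rfl

end Vale.Agent.P062
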